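import Vale.Agent.P290.H445.Final
import Vale.Agent.P267.H221.RRMain
import Vale.Agent.P290.H95.Hand

open Set Vale.Agent.P290.All Vale.Agent.P290.H124 Vale.Agent.P290.H805 Vale.Agent.P290.H95
open scoped Manifold ContDiff Topology

/-- (1) Every elliptic K3 surface is Oka: a K3 surface with a nonconstant holomorphic map to a
Riemann surface has the Oka property.
(2) A complex surface with a holomorphic unramified covering by an elliptic K3 surface is Oka.
(3) Let `F` be a family of compact Hausdorff complex surfaces over a space `T`, with second countable
total space `E`, and let `D` be a set of parameters `t` whose fibres have an unramified covering by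
(for example: are isomorphic to) an elliptic K3 surface or a K3 surface which is a Kummer surface.
Then these fibres are Oka, and in the closure of `D` the generic fibre is Oka: the `t` with Oka
fibre form a residual subset of the space `closure D`, and of `T` if `D` is dense. -/
theorem Vale.Agent.Results.P290.EllipticOka.result :
    (∀ X : K3, Elliptic X → IsOka X.X) ∧
    (∀ (X : K3) (Y : Type) [TopologicalSpace Y] [ChartedSpace C2 Y] [IsManifold 𝓘(ℂ, C2) ω Y]
      [T2Space Y] (p : X.X → Y), HolCover p → Elliptic X → IsOka Y) ∧
    ∀ (T E : Type) [TopologicalSpace T] [TopologicalSpace E] [SecondCountableTopology E]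
      (F : Family T E), (∀ t, T2Space (Fib F t)) → (∀ t, CompactSpace (Fib F t)) →
      ∀ D : Set T, (∀ t ∈ D, ∃ (X : K3) (p : X.X → Fib F t), HolCover p ∧
          (Elliptic X ∨ IsKummer X.X)) →
        (∀ t ∈ D, IsOka (Fib F t)) ∧
        {t : closure D | IsOka (Fib F t.1)} ∈ residual (closure D) ∧
        (Dense D → {t | IsOka (Fib F t)} ∈ residual T) :=
  hand (Vale.Agent.P290.H445.goal_of_rrBlock Vale.Agent.P267.RR.rrBlock)
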