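import Vale.Agent.P290.H362.F4Hand
import Vale.Agent.P290.H362.Psi
import Vale.Agent.P290.H158.GKer
import Vale.Agent.P267.H221.RRMain

open Set Vale.Agent.P290.All Vale.Agent.P290.H805 Vale.Agent.P290.H95
open scoped Manifold ContDiff Topology

/-- Let `𝓕` be a holomorphic family of K3 surfaces over an open subset `D` of a finite dimensional
complex vector space, with Hausdorff, second countable total space.
(1) Every parameter at which the Kodaira-Spencer class of the family is nonzero in some direction is
a limit of parameters with elliptic fibre.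
(2) In the closure of the set of parameters with elliptic fibre the generic fibre is Oka: the
parameters with Oka fibre form a residual subset.
(3) If `D` is connected and the Kodaira-Spencer class is nonzero for some parameter and some
direction, then the parameters with a nonzero Kodaira-Spencer class and the parameters with elliptic
fibre are dense in `D`, and the parameters with Oka fibre form a residual subset of `D`. -/
theorem Vale.Agent.Results.P290.GenericOka.result :
    ∀ (V : Type) [NormedAddCommGroup V] [NormedSpace ℂ V] [FiniteDimensional ℂ V] (D : Set V),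
      IsOpen D → ∀ (E : Type) [TopologicalSpace E] [T2Space E] [SecondCountableTopology E]
      (𝓕 : K3Family V D E),
      {t : D | ∃ v, ¬ InfTrivial 𝓕.F t v} ⊆ closure {t : D | Elliptic (𝓕.k3 t)} ∧
      {t : closure {t : D | Elliptic (𝓕.k3 t)} | IsOka (Fib 𝓕.F t.1)} ∈
        residual (closure {t : D | Elliptic (𝓕.k3 t)}) ∧
      (IsPreconnected D → (∃ (t : D) (v : V), ¬ InfTrivial 𝓕.F t v) →
        Dense {t : D | ∃ v, ¬ InfTrivial 𝓕.F t v} ∧ Dense {t : D | Elliptic (𝓕.k3 t)} ∧
          {t : D | IsOka (Fib 𝓕.F t)} ∈ residual D) :=
  Vale.Agent.P290.H362.hand4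
    (Vale.Agent.P290.H362.rrAll_of_rrBlock Vale.Agent.P267.RR.rrBlock) fun X => by
    obtain ⟨h, hh⟩ := Vale.Agent.P290.H416.exists_isHerm X.X
    obtain ⟨u, hu, hne, h0⟩ := Vale.Agent.P290.H158.exists_gker hh
    exact Vale.Agent.P290.H362.psi_of_ker X hh hu hne h0
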